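import Mathlib

/-! # P018, H867: an effective sieve for conditions that are periodic modulo `p ^ K`.

`B p n` means that the prime `p` excludes `n`. -/

namespace Vale.Agent.P018.H867

open Filter Topology

open Classical in
/-- the number of excluded residues modulo `p ^ K`. -/
noncomputable def rB (B : ℕ → ℕ → Prop) (K p : ℕ) : ℕ :=
  ((Finset.range (p ^ K)).filter (fun a => B p a)).card

open Classical in
/-- the number of `1 ≤ n ≤ X` that are not excluded by any prime. -/
noncomputable def cB (B : ℕ → ℕ → Prop) (X : ℕ) : ℕ :=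
  ((Finset.Icc 1 X).filter (fun n => ∀ p : ℕ, p.Prime → ¬ B p n)).card

open Classical in
/-- the number of `1 ≤ n ≤ X` excluded by `p`. -/
noncomputable def nB (B : ℕ → ℕ → Prop) (p X : ℕ) : ℕ :=
  ((Finset.Icc 1 X).filter (fun n => B p n)).card

open Classical in
/-- the number of `1 ≤ n ≤ X` excluded by a prime `p > X`. -/
noncomputable def tB (B : ℕ → ℕ → Prop) (X : ℕ) : ℕ :=
  ((Finset.Icc 1 X).filter (fun n => ∃ p : ℕ, p.Prime ∧ X < p ∧ B p n)).card

/-- the product of the local densities. -/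
noncomputable def dB (B : ℕ → ℕ → Prop) (K : ℕ) : ℝ :=
  ∏' p : Nat.Primes, (1 - (rB B K p : ℝ) / ((p : ℕ) : ℝ) ^ K)

/-- local factor as a function on the naturals. -/
noncomputable def lB (B : ℕ → ℕ → Prop) (K n : ℕ) : ℝ :=
  if n.Prime then 1 - (rB B K n : ℝ) / (n : ℝ) ^ K else 1

open Classical in
/-- indicator of `n` not excluded by `p`. -/
noncomputable def iB (B : ℕ → ℕ → Prop) (p n : ℕ) : ℝ := if B p n then 0 else 1

section
variable {B : ℕ → ℕ → Prop} {K : ℕ}

theorem iB_nonneg (p n : ℕ) : 0 ≤ iB B p n := by unfold iB; split_ifs <;> norm_num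

theorem iB_le_one (p n : ℕ) : iB B p n ≤ 1 := by unfold iB; split_ifs <;> norm_num

theorem iB_sum (p : ℕ) : ∑ u ∈ Finset.range (p ^ K), iB B p u = (p : ℝ) ^ K - rB B K p := by
  classical
  have h1 : ∀ u ∈ Finset.range (p ^ K), iB B p u = 1 - (if B p u then (1 : ℝ) else 0) := by
    intro u _
    unfold iB
    split_ifs <;> simp
  rw [Finset.sum_congr rfl h1, Finset.sum_sub_distrib, Finset.sum_boole]
  simp [rB]

/-- the excluded residues are few. -/
theorem rB_le (hK : 2 ≤ K) (p : ℕ) (hp : p.Prime)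
    (hper : ∀ n, B p (n + p ^ K) ↔ B p n) (D : ℝ) (hD : 0 ≤ D)
    (hcount : ∀ X : ℕ, (nB B p X : ℝ) ≤ D * ((X : ℝ) / (p : ℝ) ^ 2 + 1)) :
    (rB B K p : ℝ) / (p : ℝ) ^ K ≤ 2 * D / (p : ℝ) ^ 2 := by
  classical
  have hp0 : (0 : ℝ) < p := by exact_mod_cast hp.pos
  have hp1 : (1 : ℝ) ≤ p := by exact_mod_cast hp.one_lt.le
  have h1 : rB B K p = nB B p (p ^ K) := by
    have hfp : Function.Periodic (fun n => B p n) (p ^ K) := fun n => by
      simp only [eq_iff_iff]
      exact hper n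
    have h2 := Nat.filter_Ico_card_eq_of_periodic 1 (p ^ K) (fun n => B p n) hfp
    have h3 : Finset.Icc 1 (p ^ K) = Finset.Ico 1 (1 + p ^ K) := by
      ext x
      simp only [Finset.mem_Icc, Finset.mem_Ico]
      omega
    unfold nB rB
    rw [h3]
    convert h2.symm using 1
    rw [Nat.count_eq_card_filter_range]
  have h4 := hcount (p ^ K)
  rw [← h1] at h4
  have hpK : (p : ℝ) ^ 2 ≤ (p : ℝ) ^ K := pow_le_pow_right₀ hp1 hK
  have hpK0 : (0 : ℝ) < (p : ℝ) ^ K := by positivity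
  have hp20 : (0 : ℝ) < (p : ℝ) ^ 2 := by positivity
  rw [div_le_div_iff₀ hpK0 hp20]
  have h5 : ((p ^ K : ℕ) : ℝ) / (p : ℝ) ^ 2 + 1 ≤ 2 * (p : ℝ) ^ K / (p : ℝ) ^ 2 := by
    push_cast
    rw [div_add_one hp20.ne', div_le_div_iff_of_pos_right hp20]
    linarith
  calc (rB B K p : ℝ) * (p : ℝ) ^ 2 ≤ (D * (((p ^ K : ℕ) : ℝ) / (p : ℝ) ^ 2 + 1)) * (p : ℝ) ^ 2 := by
        gcongr
    _ ≤ (D * (2 * (p : ℝ) ^ K / (p : ℝ) ^ 2)) * (p : ℝ) ^ 2 := by gcongr
    _ = 2 * D * (p : ℝ) ^ K := by field_simp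

theorem lB_le_one (n : ℕ) : lB B K n ≤ 1 := by
  unfold lB
  split_ifs with h
  · have : (0 : ℝ) ≤ (rB B K n : ℝ) / (n : ℝ) ^ K := by positivity
    linarith
  · exact le_rfl

theorem lB_pos (hlt : ∀ p : ℕ, p.Prime → rB B K p < p ^ K) (n : ℕ) : 0 < lB B K n := by
  unfold lB
  split_ifs with h
  · have h1 : (rB B K n : ℝ) < (n : ℝ) ^ K := by exact_mod_cast hlt n h
    have h2 : (0 : ℝ) < (n : ℝ) ^ K := by
      have : 0 < n ^ K := pow_pos h.pos K
      exact_mod_cast this
    have : (rB B K n : ℝ) / (n : ℝ) ^ K < 1 := (div_lt_one h2).mpr h1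
    linarith
  · exact one_pos

theorem one_sub_lB_le {D : ℝ} (hD : 0 ≤ D)
    (hr : ∀ p : ℕ, p.Prime → (rB B K p : ℝ) / (p : ℝ) ^ K ≤ D / (p : ℝ) ^ 2) (n : ℕ) :
    1 - lB B K n ≤ D * ((n : ℝ) ^ 2)⁻¹ := by
  unfold lB
  split_ifs with h
  · have := hr n h
    rw [← div_eq_mul_inv]
    linarith
  · have : 0 ≤ D * ((n : ℝ) ^ 2)⁻¹ := by positivity
    linarith

theorem prod_ge_one_sub (s : Finset ℕ) (x : ℕ → ℝ) (h0 : ∀ i ∈ s, 0 ≤ x i)
    (h1 : ∀ i ∈ s, x i ≤ 1) : 1 - ∑ i ∈ s, (1 - x i) ≤ ∏ i ∈ s, x i := by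
  induction s using Finset.induction_on with
  | empty => simp
  | insert a s ha ih =>
    rw [Finset.sum_insert ha, Finset.prod_insert ha]
    have ih' := ih (fun i hi => h0 i (Finset.mem_insert_of_mem hi))
      (fun i hi => h1 i (Finset.mem_insert_of_mem hi))
    have ha0 := h0 a (Finset.mem_insert_self a s)
    have ha1 := h1 a (Finset.mem_insert_self a s)
    have hs : 0 ≤ ∑ i ∈ s, (1 - x i) := Finset.sum_nonneg fun i hi => by
      linarith [h1 i (Finset.mem_insert_of_mem hi)]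
    nlinarith [mul_le_mul_of_nonneg_left ih' ha0]

/-- the density as a limit, with an effective error. -/
theorem dB_spec {D : ℝ} (hD : 0 ≤ D) (hlt : ∀ p : ℕ, p.Prime → rB B K p < p ^ K)
    (hr : ∀ p : ℕ, p.Prime → (rB B K p : ℝ) / (p : ℝ) ^ K ≤ D / (p : ℝ) ^ 2) :
    Multipliable (fun p : Nat.Primes => 1 - (rB B K p : ℝ) / ((p : ℕ) : ℝ) ^ K) ∧
    0 < dB B K ∧
    ∀ z : ℕ, 1 ≤ z → |∏ n ∈ Finset.range z, lB B K n - dB B K| ≤ D * (2 / z) := by
  have hsum0 : Summable (fun n : ℕ => D * (1 / (n : ℝ) ^ 2)) :=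
    (Real.summable_one_div_nat_pow.mpr (by norm_num)).mul_left _
  have hmul : Multipliable (fun p : Nat.Primes => 1 - (rB B K p : ℝ) / ((p : ℕ) : ℝ) ^ K) := by
    have h2 : Summable (fun p : Nat.Primes => D * (1 / ((p : ℕ) : ℝ) ^ 2)) :=
      hsum0.comp_injective Nat.Primes.coe_nat_injective
    have h3 : Summable (fun p : Nat.Primes => ‖-((rB B K p : ℝ) / ((p : ℕ) : ℝ) ^ K)‖) := by
      refine Summable.of_nonneg_of_le (fun p => norm_nonneg _) (fun p => ?_) h2
      have h7 : (0 : ℝ) ≤ (rB B K p : ℝ) / ((p : ℕ) : ℝ) ^ K := by positivity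
      rw [norm_neg, Real.norm_eq_abs, abs_of_nonneg h7, mul_one_div]
      exact hr p p.2
    have h4 := multipliable_one_add_of_summable h3
    simpa [sub_eq_add_neg] using h4
  have hpos := lB_pos hlt
  have hsum : Summable (fun n : ℕ => lB B K n - 1) := by
    refine Summable.of_norm_bounded hsum0 fun n => ?_
    have h1 := one_sub_lB_le hD hr n
    have h2 := lB_le_one (B := B) (K := K) n
    rw [Real.norm_eq_abs, abs_of_nonpos (by linarith), one_div]
    linarith
  have hlog : Summable (fun n : ℕ => Real.log (lB B K n)) := by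
    have := Real.summable_log_one_add_of_summable hsum
    refine this.congr fun n => ?_
    congr 1
    ring
  have hprod := Real.hasProd_of_hasSum_log hpos hlog.hasSum
  have hd : dB B K = ∏' n : ℕ, lB B K n := by
    unfold dB
    have h1 := tprod_subtype {p : ℕ | p.Prime}
      (fun p : ℕ => (1 - (rB B K p : ℝ) / (p : ℝ) ^ K))
    have h2 : (∏' n : ℕ, lB B K n) =
        ∏' n : ℕ, ({p : ℕ | p.Prime}).mulIndicator
          (fun p : ℕ => (1 - (rB B K p : ℝ) / (p : ℝ) ^ K)) n := by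
      congr 1
      funext n
      unfold lB
      by_cases h : n.Prime
      · rw [if_pos h, Set.mulIndicator_of_mem (by exact h)]
      · rw [if_neg h, Set.mulIndicator_of_notMem (by exact h)]
    rw [h2, ← h1]
    rfl
  have htend : Tendsto (fun z : ℕ => ∏ n ∈ Finset.range z, lB B K n) atTop (𝓝 (dB B K)) := by
    rw [hd, hprod.tprod_eq]
    exact hprod.tendsto_prod_nat
  refine ⟨hmul, ?_, ?_⟩
  · rw [hd, hprod.tprod_eq]
    exact Real.exp_pos _
  · intro z hz
    have hz0 : (0 : ℝ) < z := by exact_mod_cast hz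
    have key : ∀ z' : ℕ, z ≤ z' → |∏ n ∈ Finset.range z, lB B K n -
        ∏ n ∈ Finset.range z', lB B K n| ≤ D * (2 / z) := by
      intro z' hz'
      have e1 : ∏ n ∈ Finset.range z', lB B K n =
          (∏ n ∈ Finset.range z, lB B K n) * ∏ n ∈ Finset.Ico z z', lB B K n := by
        rw [Finset.range_eq_Ico, Finset.range_eq_Ico,
          Finset.prod_Ico_consecutive _ (Nat.zero_le z) hz']
      have h0 : 0 ≤ ∏ n ∈ Finset.range z, lB B K n := Finset.prod_nonneg fun n _ => (hpos n).le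
      have h1 : ∏ n ∈ Finset.range z, lB B K n ≤ 1 :=
        Finset.prod_le_one (fun n _ => (hpos n).le) fun n _ => lB_le_one n
      have h2 : ∏ n ∈ Finset.Ico z z', lB B K n ≤ 1 :=
        Finset.prod_le_one (fun n _ => (hpos n).le) fun n _ => lB_le_one n
      have h3 := prod_ge_one_sub (Finset.Ico z z') (lB B K) (fun n _ => (hpos n).le)
        (fun n _ => lB_le_one n)
      have h4 : ∑ i ∈ Finset.Ico z z', (1 - lB B K i) ≤ D * (2 / z) := by
        calc ∑ i ∈ Finset.Ico z z', (1 - lB B K i)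
            ≤ ∑ i ∈ Finset.Ico z z', D * ((i : ℝ) ^ 2)⁻¹ :=
              Finset.sum_le_sum fun i _ => one_sub_lB_le hD hr i
          _ = D * ∑ i ∈ Finset.Ico z z', ((i : ℝ) ^ 2)⁻¹ := by rw [Finset.mul_sum]
          _ ≤ D * (2 / z) := by
              refine mul_le_mul_of_nonneg_left ?_ hD
              have h6 := sum_Ioo_inv_sq_le (α := ℝ) (z - 1) z'
              have h7 : (((z - 1 : ℕ) : ℝ) + 1) = z := by
                rw [Nat.cast_sub hz]
                push_cast
                ring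
              rw [h7] at h6
              refine le_trans (le_of_eq ?_) h6
              congr 1
              ext x
              simp only [Finset.mem_Ico, Finset.mem_Ioo]
              omega
      rw [e1, abs_of_nonneg (by nlinarith)]
      nlinarith
    have hlim := (tendsto_const_nhds (x := ∏ n ∈ Finset.range z, lB B K n)).sub htend
    exact le_of_tendsto (hlim.abs) (eventually_atTop.2 ⟨z, key⟩)


/-! ### periodicity and the Chinese remainder theorem -/

theorem sumrange_coprime {m n : ℕ} (hm : 0 < m) (hn : 0 < n) (h : Nat.Coprime m n)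
    (F : ℕ → ℕ → ℝ) :
    ∑ u ∈ Finset.range (m * n), F (u % m) (u % n) =
      ∑ v ∈ Finset.range m, ∑ w ∈ Finset.range n, F v w := by
  rw [← Finset.sum_product']
  refine Finset.sum_nbij (fun u => (u % m, u % n)) ?_ ?_ ?_ ?_
  · intro u _
    simp only [Finset.mem_product, Finset.mem_range]
    exact ⟨Nat.mod_lt _ hm, Nat.mod_lt _ hn⟩
  · intro u hu v hv huv
    simp only [Finset.coe_range, Set.mem_Iio] at hu hv
    simp only [Prod.mk.injEq] at huv
    have h1 : u ≡ v [MOD m * n] :=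
      (Nat.modEq_and_modEq_iff_modEq_mul h).1 ⟨huv.1, huv.2⟩
    have h2 : u % (m * n) = v % (m * n) := h1
    rwa [Nat.mod_eq_of_lt hu, Nat.mod_eq_of_lt hv] at h2
  · rintro ⟨a, b⟩ hab
    simp only [Finset.coe_product, Finset.coe_range, Set.mem_prod, Set.mem_Iio] at hab
    refine ⟨(Nat.chineseRemainder h a b : ℕ), ?_, ?_⟩
    · simp only [Finset.coe_range, Set.mem_Iio]
      exact Nat.chineseRemainder_lt_mul h a b hm.ne' hn.ne'
    · have hp := (Nat.chineseRemainder h a b).2
      simp only [Prod.mk.injEq]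
      constructor
      · have : (Nat.chineseRemainder h a b : ℕ) % m = a % m := hp.1
        rw [this, Nat.mod_eq_of_lt hab.1]
      · have : (Nat.chineseRemainder h a b : ℕ) % n = b % n := hp.2
        rw [this, Nat.mod_eq_of_lt hab.2]
  · intro u _
    rfl

theorem iB_mod {p M : ℕ} (hper : ∀ n, B p (n + p ^ K) ↔ B p n) (hM : p ^ K ∣ M) (u : ℕ) :
    iB B p (u % M) = iB B p u := by
  obtain ⟨c, rfl⟩ := hM
  have h1 : ∀ j n, B p (n + p ^ K * j) ↔ B p n := by
    intro j
    induction j with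
    | zero => intro n; simp
    | succ j ih =>
      intro n
      rw [mul_add, mul_one, ← add_assoc, hper, ih]
  have h2 : B p u ↔ B p (u % (p ^ K * c)) := by
    conv_lhs => rw [← Nat.mod_add_div u (p ^ K * c), mul_assoc]
    exact h1 _ _
  unfold iB
  by_cases h : B p u
  · rw [if_pos h, if_pos (h2.1 h)]
  · rw [if_neg h, if_neg (fun h' => h (h2.2 h'))]

theorem prodB_sum (hper : ∀ p : ℕ, p.Prime → ∀ n, B p (n + p ^ K) ↔ B p n)
    (P : Finset ℕ) (hP : ∀ p ∈ P, p.Prime) :
    ∑ u ∈ Finset.range (∏ p ∈ P, p ^ K), ∏ p ∈ P, iB B p u =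
      ∏ p ∈ P, ((p : ℝ) ^ K - rB B K p) := by
  induction P using Finset.induction_on with
  | empty => simp
  | insert p P hp ih =>
    have hpp := hP p (Finset.mem_insert_self p P)
    have hP' : ∀ q ∈ P, q.Prime := fun q hq => hP q (Finset.mem_insert_of_mem hq)
    have ih' := ih hP'
    rw [Finset.prod_insert hp, Finset.prod_insert hp]
    set M := ∏ q ∈ P, q ^ K with hM
    have hMpos : 0 < M := Finset.prod_pos fun q hq => pow_pos (hP' q hq).pos K
    have hcop : Nat.Coprime (p ^ K) M := by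
      rw [hM]
      apply Nat.Coprime.prod_right
      intro q hq
      apply Nat.Coprime.pow
      rw [Nat.coprime_primes hpp (hP' q hq)]
      rintro rfl
      exact hp hq
    have h1 : ∀ u ∈ Finset.range (p ^ K * M), ∏ q ∈ insert p P, iB B q u =
        iB B p (u % (p ^ K)) * ∏ q ∈ P, iB B q (u % M) := by
      intro u _
      rw [Finset.prod_insert hp, iB_mod (hper p hpp) dvd_rfl]
      congr 1
      refine Finset.prod_congr rfl fun q hq => ?_
      rw [iB_mod (hper q (hP' q hq)) (Finset.dvd_prod_of_mem (fun q => q ^ K) hq)]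
    rw [Finset.sum_congr rfl h1, sumrange_coprime (pow_pos hpp.pos K) hMpos hcop
      (fun v w => iB B p v * ∏ q ∈ P, iB B q w), ← Finset.sum_mul_sum, ih', iB_sum]

theorem sum_mul_range (G : ℕ → ℝ) (M : ℕ) (hper : ∀ u, G (u + M) = G u) (q r : ℕ) :
    ∑ n ∈ Finset.range (M * q + r), G n = q * ∑ n ∈ Finset.range M, G n
      + ∑ n ∈ Finset.range r, G n := by
  induction q with
  | zero => simp
  | succ q ih =>
    have h1 : M * (q + 1) + r = M + (M * q + r) := by ring
    rw [h1, Finset.sum_range_add]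
    have h2 : ∀ n ∈ Finset.range (M * q + r), G (M + n) = G n := fun n _ => by
      rw [add_comm, hper]
    rw [Finset.sum_congr rfl h2, ih]
    push_cast
    ring

theorem periodic_bound (G : ℕ → ℝ) (M : ℕ) (hM : 0 < M) (hper : ∀ u, G (u + M) = G u)
    (h0 : ∀ u, 0 ≤ G u) (h1 : ∀ u, G u ≤ 1) (X : ℕ) :
    |∑ n ∈ Finset.Icc 1 X, G n - X * ((∑ n ∈ Finset.range M, G n) / M)| ≤ M + 2 := by
  set S := ∑ n ∈ Finset.range M, G n with hS
  have hM' : (0 : ℝ) < M := by exact_mod_cast hM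
  have hS0 : 0 ≤ S := Finset.sum_nonneg fun _ _ => h0 _
  have hSM : S ≤ M := by
    calc S ≤ ∑ n ∈ Finset.range M, (1 : ℝ) := Finset.sum_le_sum fun n _ => h1 n
      _ = M := by simp
  have e1 : ∑ n ∈ Finset.Icc 1 X, G n = ∑ n ∈ Finset.range (X + 1), G n - G 0 := by
    have : Finset.range (X + 1) = insert 0 (Finset.Icc 1 X) := by
      ext x
      simp only [Finset.mem_range, Finset.mem_insert, Finset.mem_Icc]
      omega
    rw [this, Finset.sum_insert (by simp)]
    ring
  obtain ⟨q, r, hr, hq⟩ : ∃ q r : ℕ, r < M ∧ X + 1 = M * q + r :=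
    ⟨(X + 1) / M, (X + 1) % M, Nat.mod_lt _ hM, (Nat.div_add_mod _ _).symm⟩
  rw [e1, hq, sum_mul_range G M hper]
  have hr0 : 0 ≤ ∑ n ∈ Finset.range r, G n := Finset.sum_nonneg fun _ _ => h0 _
  have hr1 : ∑ n ∈ Finset.range r, G n ≤ r := by
    calc ∑ n ∈ Finset.range r, G n ≤ ∑ n ∈ Finset.range r, (1 : ℝ) :=
          Finset.sum_le_sum fun n _ => h1 n
      _ = r := by simp
  have hr2 : (r : ℝ) ≤ M := by exact_mod_cast hr.le
  have hX : (X : ℝ) = M * q + r - 1 := by
    have : ((X + 1 : ℕ) : ℝ) = ((M * q + r : ℕ) : ℝ) := by rw [hq]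
    push_cast at this
    linarith
  have hSd : S / M ≤ 1 := (div_le_one hM').2 hSM
  have hSd0 : 0 ≤ S / M := by positivity
  have e2 : (X : ℝ) * (S / M) = q * S + (r - 1) * (S / M) := by
    rw [hX]
    field_simp
    ring
  rw [e2]
  have hG0 := h0 0
  have hG1 := h1 0
  have hrn : (0 : ℝ) ≤ r := Nat.cast_nonneg r
  have e3 : (r : ℝ) * (S / M) ≤ r := by nlinarith
  have e4 : 0 ≤ (r : ℝ) * (S / M) := by positivity
  rw [abs_le]
  constructor <;> nlinarith

/-- the count of the integers that survive the primes below `z`. -/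
theorem partial_sieve (hper : ∀ p : ℕ, p.Prime → ∀ n, B p (n + p ^ K) ↔ B p n) (z X : ℕ) :
    |∑ n ∈ Finset.Icc 1 X, ∏ p ∈ (Finset.range z).filter Nat.Prime, iB B p n -
      X * ∏ n ∈ Finset.range z, lB B K n| ≤
      ((∏ p ∈ (Finset.range z).filter Nat.Prime, p ^ K : ℕ) : ℝ) + 2 := by
  set P := (Finset.range z).filter Nat.Prime with hP
  have hPp : ∀ p ∈ P, p.Prime := fun p hp => (Finset.mem_filter.mp hp).2
  set M := ∏ p ∈ P, p ^ K with hM
  have hMpos : 0 < M := Finset.prod_pos fun q hq => pow_pos (hPp q hq).pos K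
  have hperG : ∀ u, ∏ p ∈ P, iB B p (u + M) = ∏ p ∈ P, iB B p u := by
    intro u
    refine Finset.prod_congr rfl fun p hp => ?_
    have hd : p ^ K ∣ M := Finset.dvd_prod_of_mem (fun q => q ^ K) hp
    rw [← iB_mod (hper p (hPp p hp)) hd (u + M), Nat.add_mod_right,
      iB_mod (hper p (hPp p hp)) hd]
  have hlim : (∑ n ∈ Finset.range M, ∏ p ∈ P, iB B p n) / M = ∏ n ∈ Finset.range z, lB B K n := by
    have h1 : ∑ n ∈ Finset.range M, ∏ p ∈ P, iB B p n = ∏ p ∈ P, ((p : ℝ) ^ K - rB B K p) :=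
      prodB_sum hper P hPp
    have h2 : (M : ℝ) = ∏ p ∈ P, (p : ℝ) ^ K := by rw [hM]; push_cast; rfl
    rw [h1, h2, ← Finset.prod_div_distrib, hP, Finset.prod_filter]
    refine Finset.prod_congr rfl fun n _ => ?_
    unfold lB
    split_ifs with h
    · have hn : (n : ℝ) ^ K ≠ 0 := pow_ne_zero _ (by exact_mod_cast h.pos.ne')
      rw [sub_div, div_self hn]
    · rfl
  rw [← hlim]
  exact periodic_bound (fun n => ∏ p ∈ P, iB B p n) M hMpos hperG
    (fun n => Finset.prod_nonneg fun _ _ => iB_nonneg _ n)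
    (fun n => Finset.prod_le_one (fun _ _ => iB_nonneg _ n) fun _ _ => iB_le_one _ n) X

/-- the integers excluded only by primes `≥ z`. -/
theorem sieve_diff {D : ℝ} (hD : 0 ≤ D)
    (hcount : ∀ p : ℕ, p.Prime → ∀ X : ℕ, (nB B p X : ℝ) ≤ D * ((X : ℝ) / (p : ℝ) ^ 2 + 1))
    (z : ℕ) (hz : 1 ≤ z) (X : ℕ) :
    |(cB B X : ℝ) - ∑ n ∈ Finset.Icc 1 X, ∏ p ∈ (Finset.range z).filter Nat.Prime, iB B p n| ≤
      D * (2 / z) * X + D * Nat.primeCounting X + tB B X := by
  classical
  set S := (Finset.Icc 1 X).filter (fun n : ℕ => ∀ p < z, p.Prime → ¬ B p n) with hS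
  have hGS : ∑ n ∈ Finset.Icc 1 X, ∏ p ∈ (Finset.range z).filter Nat.Prime, iB B p n =
      (S.card : ℝ) := by
    rw [hS, Finset.card_filter]
    push_cast
    refine Finset.sum_congr rfl fun n _ => ?_
    split_ifs with h
    · refine Finset.prod_eq_one fun p hp => ?_
      rw [Finset.mem_filter, Finset.mem_range] at hp
      have := h p hp.1 hp.2
      unfold iB
      rw [if_neg this]
    · push Not at h
      obtain ⟨p, hpz, hpp, hpd⟩ := h
      refine Finset.prod_eq_zero (i := p) ?_ ?_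
      · rw [Finset.mem_filter, Finset.mem_range]
        exact ⟨hpz, hpp⟩
      · unfold iB
        rw [if_pos hpd]
  have hsub : (Finset.Icc 1 X).filter (fun n : ℕ => ∀ p : ℕ, p.Prime → ¬ B p n) ⊆ S := by
    intro n hn
    rw [Finset.mem_filter] at hn
    rw [hS, Finset.mem_filter]
    exact ⟨hn.1, fun p _ hp => hn.2 p hp⟩
  have hcnt : cB B X =
      ((Finset.Icc 1 X).filter (fun n : ℕ => ∀ p : ℕ, p.Prime → ¬ B p n)).card := by
    unfold cB
    congr
  have hdiff : S \ (Finset.Icc 1 X).filter (fun n : ℕ => ∀ p : ℕ, p.Prime → ¬ B p n) ⊆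
      (((Finset.Ioo (z - 1) (X + 1)).filter Nat.Prime).biUnion
        (fun p => (Finset.Icc 1 X).filter (fun n : ℕ => B p n))) ∪
      ((Finset.Icc 1 X).filter (fun n : ℕ => ∃ p : ℕ, p.Prime ∧ X < p ∧ B p n)) := by
    intro n hn
    rw [Finset.mem_sdiff, hS, Finset.mem_filter] at hn
    obtain ⟨⟨hnI, hnz⟩, hnot⟩ := hn
    have h1 : ¬ ∀ p : ℕ, p.Prime → ¬ B p n := fun h => hnot (Finset.mem_filter.mpr ⟨hnI, h⟩)
    push Not at h1
    obtain ⟨p, hpp, hpd⟩ := h1
    have hzp : z ≤ p := by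
      by_contra hlt
      exact hnz p (by omega) hpp hpd
    rw [Finset.mem_union]
    by_cases hpX : p ≤ X
    · left
      rw [Finset.mem_biUnion]
      refine ⟨p, ?_, ?_⟩
      · rw [Finset.mem_filter, Finset.mem_Ioo]
        exact ⟨by omega, hpp⟩
      · rw [Finset.mem_filter]
        exact ⟨hnI, hpd⟩
    · right
      rw [Finset.mem_filter]
      exact ⟨hnI, p, hpp, by omega, hpd⟩
  have htailc : tB B X = ((Finset.Icc 1 X).filter
        (fun n : ℕ => ∃ p : ℕ, p.Prime ∧ X < p ∧ B p n)).card := by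
    unfold tB
    congr
  have hnc : ∀ p, nB B p X = ((Finset.Icc 1 X).filter (fun n : ℕ => B p n)).card := by
    intro p
    unfold nB
    congr
  have hcard1 : S.card ≤ cB B X +
      (∑ p ∈ (Finset.Ioo (z - 1) (X + 1)).filter Nat.Prime, nB B p X) + tB B X := by
    have h1 := Finset.card_sdiff_add_card_eq_card hsub
    have h2 := (Finset.card_le_card hdiff).trans (Finset.card_union_le _ _)
    have h3 := Finset.card_biUnion_le (s := (Finset.Ioo (z - 1) (X + 1)).filter Nat.Prime)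
      (t := fun p => (Finset.Icc 1 X).filter (fun n : ℕ => B p n))
    rw [← htailc] at h2
    rw [← hcnt] at h1
    rw [Finset.sum_congr rfl fun p _ => hnc p]
    omega
  have hcard2 : cB B X ≤ S.card := by
    rw [hcnt]
    exact Finset.card_le_card hsub
  have hmid : (∑ p ∈ (Finset.Ioo (z - 1) (X + 1)).filter Nat.Prime, (nB B p X : ℝ)) ≤
      D * (2 / z) * X + D * Nat.primeCounting X := by
    have h1 : ∀ p ∈ (Finset.Ioo (z - 1) (X + 1)).filter Nat.Prime,
        (nB B p X : ℝ) ≤ D * X * ((p : ℝ) ^ 2)⁻¹ + D := by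
      intro p hp
      rw [Finset.mem_filter] at hp
      refine (hcount p hp.2 X).trans (le_of_eq ?_)
      ring
    refine (Finset.sum_le_sum h1).trans ?_
    rw [Finset.sum_add_distrib, ← Finset.mul_sum, Finset.sum_const, nsmul_eq_mul]
    have h5 : ∑ p ∈ (Finset.Ioo (z - 1) (X + 1)).filter Nat.Prime, ((p : ℝ) ^ 2)⁻¹ ≤ 2 / z := by
      have h6 := sum_Ioo_inv_sq_le (α := ℝ) (z - 1) (X + 1)
      have h7 : (((z - 1 : ℕ) : ℝ) + 1) = z := by
        rw [Nat.cast_sub hz]
        push_cast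
        ring
      rw [h7] at h6
      refine le_trans ?_ h6
      exact Finset.sum_le_sum_of_subset_of_nonneg (Finset.filter_subset _ _)
        fun p _ _ => by positivity
    have h8 : (((Finset.Ioo (z - 1) (X + 1)).filter Nat.Prime).card : ℝ) ≤ Nat.primeCounting X := by
      rw [Nat.primeCounting, Nat.primeCounting', Nat.count_eq_card_filter_range]
      have : (Finset.Ioo (z - 1) (X + 1)).filter Nat.Prime ⊆
          (Finset.range (X + 1)).filter Nat.Prime := by
        intro p hp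
        rw [Finset.mem_filter, Finset.mem_Ioo] at hp
        rw [Finset.mem_filter, Finset.mem_range]
        exact ⟨hp.1.2, hp.2⟩
      exact_mod_cast Finset.card_le_card this
    calc _ ≤ D * X * (2 / z) + Nat.primeCounting X * (D : ℝ) := by gcongr
      _ = _ := by ring
  have hcard1' : (S.card : ℝ) ≤ cB B X +
      (∑ p ∈ (Finset.Ioo (z - 1) (X + 1)).filter Nat.Prime, (nB B p X : ℝ)) + tB B X := by
    exact_mod_cast hcard1
  have hcard2' : (cB B X : ℝ) ≤ S.card := by exact_mod_cast hcard2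
  rw [hGS, abs_le]
  have hz0 : (0 : ℝ) < z := by exact_mod_cast hz
  constructor
  · linarith
  · have : 0 ≤ D * (2 / z) * X + D * Nat.primeCounting X + (tB B X : ℝ) := by positivity
    linarith

/-! ### elementary bounds -/

theorem sqrt_le_div_log {x : ℝ} (hx : 2 ≤ x) : Real.sqrt x ≤ 2 * (x / Real.log x) := by
  have hx0 : 0 < x := by linarith
  have hl : 0 < Real.log x := Real.log_pos (by linarith)
  have hs : 0 < Real.sqrt x := Real.sqrt_pos.2 hx0
  have h1 : Real.log x ≤ 2 * Real.sqrt x := by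
    have h2 := Real.log_le_sub_one_of_pos hs
    rw [Real.log_sqrt hx0.le] at h2
    linarith
  rw [mul_div_assoc', le_div_iff₀ hl]
  calc Real.sqrt x * Real.log x ≤ Real.sqrt x * (2 * Real.sqrt x) := by gcongr
    _ = 2 * (Real.sqrt x * Real.sqrt x) := by ring
    _ = 2 * x := by rw [Real.mul_self_sqrt hx0.le]

theorem one_le_div_log {x : ℝ} (hx : 2 ≤ x) : 1 ≤ x / Real.log x := by
  have hl : 0 < Real.log x := Real.log_pos (by linarith)
  rw [le_div_iff₀ hl, one_mul]
  have := Real.log_le_sub_one_of_pos (show 0 < x by linarith)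
  linarith

/-- the primes below `y` have a small product. -/
theorem prod_primes_le (y K : ℕ) : ((∏ p ∈ (Finset.range (y + 1)).filter Nat.Prime, p ^ K : ℕ) : ℝ) ≤
    (4 : ℝ) ^ (y * K) := by
  have h1 : ∏ p ∈ (Finset.range (y + 1)).filter Nat.Prime, p ^ K = (primorial y) ^ K := by
    rw [primorial, Finset.prod_pow]
  rw [h1]
  have h2 := primorial_le_four_pow y
  have h3 : (primorial y) ^ K ≤ (4 ^ y) ^ K := Nat.pow_le_pow_left h2 K
  rw [← pow_mul] at h3
  exact_mod_cast h3

theorem primeCounting_le_div_log : ∃ C : ℝ, 0 < C ∧ ∀ X : ℕ, 2 ≤ X →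
    (Nat.primeCounting X : ℝ) ≤ C * (X / Real.log X) := by
  have h1 := tendsto_natCast_atTop_atTop.eventually
    (Chebyshev.eventually_primeCounting_le (ε := 1) one_pos)
  rw [eventually_atTop] at h1
  obtain ⟨X0, hX0⟩ := h1
  refine ⟨max (Real.log 4 + 1) (Real.log (X0 + 2)), lt_max_of_lt_left ?_, ?_⟩
  · have : 0 < Real.log 4 := Real.log_pos (by norm_num)
    linarith
  · intro X hX
    have hXr : (2 : ℝ) ≤ X := by exact_mod_cast hX
    have hl : 0 < Real.log X := Real.log_pos (by linarith)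
    have hq : 0 ≤ (X : ℝ) / Real.log X := by positivity
    rcases le_or_gt X0 X with h | h
    · have h2 := hX0 X h
      rw [Nat.floor_natCast] at h2
      calc (Nat.primeCounting X : ℝ) ≤ (Real.log 4 + 1) * X / Real.log X := h2
        _ = (Real.log 4 + 1) * (X / Real.log X) := by ring
        _ ≤ _ := mul_le_mul_of_nonneg_right (le_max_left _ _) hq
    · have h3 : (Nat.primeCounting X : ℝ) ≤ X := by
        have h4 : Nat.primeCounting X ≤ X := by
          rw [Nat.primeCounting, Nat.primeCounting', Nat.count_eq_card_filter_range]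
          have h5 : (Finset.range (X + 1)).filter Nat.Prime ⊆ Finset.Icc 1 X := by
            intro p hp
            rw [Finset.mem_filter, Finset.mem_range] at hp
            rw [Finset.mem_Icc]
            exact ⟨hp.2.one_lt.le, by omega⟩
          refine (Finset.card_le_card h5).trans ?_
          simp
        exact_mod_cast h4
      refine h3.trans ?_
      have h6 : Real.log X ≤ Real.log (X0 + 2) :=
        Real.log_le_log (by linarith) (by
          have : (X : ℝ) ≤ X0 := by exact_mod_cast h.le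
          linarith)
      calc (X : ℝ) = Real.log X * (X / Real.log X) := by field_simp
        _ ≤ max (Real.log 4 + 1) (Real.log (X0 + 2)) * (X / Real.log X) :=
          mul_le_mul_of_nonneg_right (h6.trans (le_max_right _ _)) hq

/-- **the effective sieve.** -/
theorem abs_sieve (hK : 2 ≤ K) (hper : ∀ p : ℕ, p.Prime → ∀ n, B p (n + p ^ K) ↔ B p n)
    {D C : ℝ} (hD : 0 ≤ D) (hC : 0 ≤ C)
    (hcount : ∀ p : ℕ, p.Prime → ∀ X : ℕ, (nB B p X : ℝ) ≤ D * ((X : ℝ) / (p : ℝ) ^ 2 + 1))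
    (hlt : ∀ p : ℕ, p.Prime → rB B K p < p ^ K)
    (htail : ∀ X : ℕ, 2 ≤ X → (tB B X : ℝ) ≤ C * (X / Real.log X)) :
    Multipliable (fun p : Nat.Primes => 1 - (rB B K p : ℝ) / ((p : ℕ) : ℝ) ^ K) ∧
    0 < dB B K ∧
    ∃ C' : ℝ, 0 < C' ∧ ∀ X : ℕ, 2 ≤ X → |(cB B X : ℝ) - dB B K * X| ≤ C' * (X / Real.log X) := by
  have hr : ∀ p : ℕ, p.Prime → (rB B K p : ℝ) / (p : ℝ) ^ K ≤ (2 * D) / (p : ℝ) ^ 2 :=
    fun p hp => rB_le hK p hp (hper p hp) D hD (hcount p hp)
  obtain ⟨hmul, hpos, hz⟩ := dB_spec (D := 2 * D) (by positivity) hlt hr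
  refine ⟨hmul, hpos, ?_⟩
  obtain ⟨Cπ, hCπ, hπ⟩ := primeCounting_le_div_log
  have hK0 : (0 : ℝ) < K := by exact_mod_cast (show 0 < K by omega)
  refine ⟨2 + 2 + 6 * D * (4 * K) + D * Cπ + C, by positivity, ?_⟩
  intro X hX
  have hXr : (2 : ℝ) ≤ X := by exact_mod_cast hX
  have hX0 : (0 : ℝ) < X := by linarith
  have hl : 0 < Real.log X := Real.log_pos (by linarith)
  set q : ℝ := X / Real.log X with hq
  have hq0 : 0 < q := by positivity
  set y : ℕ := ⌊Real.log X / (4 * K)⌋₊ with hy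
  have hy1 : (y : ℝ) ≤ Real.log X / (4 * K) := Nat.floor_le (by positivity)
  have hy2 : Real.log X / (4 * K) < (y : ℝ) + 1 := Nat.lt_floor_add_one _
  set z : ℕ := y + 1 with hzd
  have hz1 : 1 ≤ z := by omega
  have hzr : Real.log X / (4 * K) < (z : ℝ) := by
    rw [hzd]
    push_cast
    exact hy2
  have hz0 : (0 : ℝ) < z := lt_trans (by positivity) hzr
  have hzi : (1 : ℝ) / z * X ≤ 4 * K * q := by
    have h1 : (1 : ℝ) / z ≤ 4 * K / Real.log X := by
      rw [div_le_div_iff₀ hz0 hl]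
      rw [div_lt_iff₀ (by positivity)] at hzr
      linarith
    calc (1 : ℝ) / z * X ≤ 4 * K / Real.log X * X := by gcongr
      _ = 4 * K * q := by rw [hq]; ring
  have e1 := partial_sieve hper z X
  have e2 := hz z hz1
  have e3 := sieve_diff hD hcount z hz1 X
  have e4 : ((∏ p ∈ (Finset.range z).filter Nat.Prime, p ^ K : ℕ) : ℝ) ≤ 2 * q := by
    refine (prod_primes_le y K).trans ((le_trans ?_ (sqrt_le_div_log hXr)))
    have h1 : (4 : ℝ) ^ (y * K) = Real.exp (Real.log 4 * (y * K)) := by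
      rw [← Real.rpow_natCast, Real.rpow_def_of_pos (by norm_num)]
      push_cast
      rfl
    have h2 : Real.sqrt X = Real.exp (Real.log X * (1 / 2)) := by
      rw [Real.sqrt_eq_rpow, Real.rpow_def_of_pos hX0]
    rw [h1, h2]
    apply Real.exp_le_exp.2
    have h3 : (y : ℝ) * K ≤ Real.log X / 4 := by
      calc (y : ℝ) * K ≤ Real.log X / (4 * K) * K := by gcongr
        _ = Real.log X / 4 := by field_simp
    have h4 : Real.log 4 ≤ 2 := by
      have h5 : Real.log 4 = 2 * Real.log 2 := by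
        rw [show (4 : ℝ) = 2 ^ 2 by norm_num, Real.log_pow]
        norm_num
      have h6 := Real.log_two_lt_d9
      rw [h5]
      linarith
    have h7 : 0 ≤ (y : ℝ) * K := by positivity
    calc Real.log 4 * (y * K) ≤ 2 * (Real.log X / 4) := by
          apply mul_le_mul h4 h3 h7 (by norm_num)
      _ = Real.log X * (1 / 2) := by ring
  have e5 : (1 : ℝ) ≤ q := one_le_div_log hXr
  have e6 := htail X hX
  have e7 := hπ X hX
  set s1 := ∑ n ∈ Finset.Icc 1 X, ∏ p ∈ (Finset.range z).filter Nat.Prime, iB B p n with hs1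
  set p1 := ∏ n ∈ Finset.range z, lB B K n with hp1
  have f2 : |(X : ℝ) * p1 - dB B K * X| ≤ 4 * D * (4 * K) * q := by
    have : (X : ℝ) * p1 - dB B K * X = X * (p1 - dB B K) := by ring
    rw [this, abs_mul, abs_of_pos hX0]
    calc (X : ℝ) * |p1 - dB B K| ≤ X * (2 * D * (2 / z)) := by gcongr
      _ = 4 * D * (1 / z * X) := by ring
      _ ≤ 4 * D * (4 * K * q) := by gcongr
      _ = 4 * D * (4 * K) * q := by ring
  have f3 : D * (2 / z) * X ≤ 2 * D * (4 * K) * q := by
    calc D * (2 / z) * X = 2 * D * (1 / z * X) := by ring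
      _ ≤ 2 * D * (4 * K * q) := by gcongr
      _ = _ := by ring
  have f4 : D * (Nat.primeCounting X : ℝ) ≤ D * Cπ * q := by
    calc D * (Nat.primeCounting X : ℝ) ≤ D * (Cπ * q) := by gcongr
      _ = _ := by ring
  calc |(cB B X : ℝ) - dB B K * X|
      = |((cB B X : ℝ) - s1) + (s1 - X * p1) + (X * p1 - dB B K * X)| := by
        congr 1
        ring
    _ ≤ |(cB B X : ℝ) - s1| + |s1 - X * p1| + |X * p1 - dB B K * X| := abs_add_three _ _ _
    _ ≤ (2 + 2 + 6 * D * (4 * K) + D * Cπ + C) * q := by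
      linarith

end

end Vale.Agent.P018.H867
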