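import Vale.Agent.P018.Base

/-! # P018, H867: power-free values of separable polynomials and of several polynomials:
the objects in the statement (`rho`, `PowerFree`, `countPF`, `density` are in `P018.Base`). -/

namespace Vale.Agent.P018.H867

open Polynomial

/-- the pairs (degree, exponent) that are treated. -/
def InRange (d k : ℕ) : Prop :=
  d ≤ 4 ∨ d < 2 * k ∨ 2 * d + 12 ≤ 7 * k ∨ (d : ℝ) / 4 + Real.log d ^ 2 ≤ k

/-- `f` has no multiple factor over `ℚ` (so `f ≠ 0`), and every irreducible factor `g` of `f`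
over `ℚ` has `(deg g, k)` in the range. -/
def Good (f : ℤ[X]) (k : ℕ) : Prop :=
  Squarefree (f.map (Int.castRingHom ℚ)) ∧
    ∀ g : ℚ[X], Irreducible g → g ∣ f.map (Int.castRingHom ℚ) → InRange g.natDegree k

/-- the largest of the exponents `k i`. -/
def topExp {m : ℕ} (k : Fin m → ℕ) : ℕ := Finset.univ.sup k

open Classical in
/-- the number of residues `a` modulo `p ^ topExp k` for which `p ^ (k i) ∣ f i (a)` for some `i`. -/
noncomputable def rhoS {m : ℕ} (f : Fin m → ℤ[X]) (k : Fin m → ℕ) (p : ℕ) : ℕ :=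
  ((Finset.range (p ^ topExp k)).filter
    (fun a : ℕ => ∃ i, (p : ℤ) ^ k i ∣ (f i).eval (a : ℤ))).card

open Classical in
/-- the number of `1 ≤ n ≤ X` such that `f i (n)` is `(k i)`-power-free for every `i`. -/
noncomputable def countS {m : ℕ} (f : Fin m → ℤ[X]) (k : Fin m → ℕ) (X : ℕ) : ℕ :=
  ((Finset.Icc 1 X).filter (fun n : ℕ => ∀ i, PowerFree (k i) ((f i).eval (n : ℤ)))).card

/-- the product of the local densities `1 - rhoS f k p / p ^ topExp k`. -/
noncomputable def densityS {m : ℕ} (f : Fin m → ℤ[X]) (k : Fin m → ℕ) : ℝ :=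
  ∏' p : Nat.Primes, (1 - (rhoS f k p : ℝ) / ((p : ℕ) : ℝ) ^ topExp k)

end Vale.Agent.P018.H867
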