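import Vale.Agent.P018.H867.Sep

/-! # P018, H867: the two main theorems. -/

namespace Vale.Agent.P018.H867

open Polynomial Filter Topology

theorem card_filter_eq {α : Type*} (s : Finset α) (P Q : α → Prop) {_ : DecidablePred P}
    {_ : DecidablePred Q} (h : ∀ a, P a ↔ Q a) : (s.filter P).card = (s.filter Q).card := by
  congr 1
  ext a
  rw [Finset.mem_filter, Finset.mem_filter, h a]

theorem card_filter_biUnion {α : Type*} [DecidableEq α] {m : ℕ} (s : Finset α) (P : α → Prop)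
    (Q : Fin m → α → Prop) {_ : DecidablePred P} {_ : ∀ i, DecidablePred (Q i)}
    (h : ∀ a, P a → ∃ i, Q i a) : (s.filter P).card ≤ ∑ i, (s.filter (Q i)).card := by
  refine (Finset.card_le_card (t := Finset.univ.biUnion fun i => s.filter (Q i)) ?_).trans
    Finset.card_biUnion_le
  intro n hn
  rw [Finset.mem_filter] at hn
  obtain ⟨hnI, hn⟩ := hn
  obtain ⟨i, hi⟩ := h n hn
  rw [Finset.mem_biUnion]
  exact ⟨i, Finset.mem_univ i, Finset.mem_filter.2 ⟨hnI, hi⟩⟩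

/-- the number of `n ≤ X` with `p ^ k ∣ f(n)`. -/
theorem count_le (f : ℤ[X]) (k : ℕ) (hk : 2 ≤ k) (hf : Good f k) :
    ∃ D : ℝ, 0 ≤ D ∧ ∀ p : ℕ, p.Prime → ∀ X : ℕ,
      (nB (fun p n => (p : ℤ) ^ k ∣ f.eval (n : ℤ)) p X : ℝ) ≤ D * ((X : ℝ) / (p : ℝ) ^ 2 + 1) := by
  classical
  obtain ⟨D, hD⟩ := sep_rho_bound f k (by omega) hf.1
  refine ⟨D, by positivity, fun p hp X => ?_⟩
  have hp1 : (1 : ℝ) ≤ p := by exact_mod_cast hp.one_lt.le
  have h1 := sv_count_dvd_le f (p ^ k) (pow_pos hp.pos k) X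
  have h2 : nB (fun p n => (p : ℤ) ^ k ∣ f.eval (n : ℤ)) p X =
      ((Finset.Icc 1 X).filter (fun n : ℕ => ((p ^ k : ℕ) : ℤ) ∣ f.eval (n : ℤ))).card := by
    unfold nB
    refine card_filter_eq _ _ _ fun n => ?_
    push_cast
    rfl
  rw [h2]
  refine h1.trans ?_
  have h3 : (rho f (p ^ k) : ℝ) ≤ D := by exact_mod_cast hD p hp
  have h4 : (p : ℝ) ^ 2 ≤ (p : ℝ) ^ k := pow_le_pow_right₀ hp1 hk
  have h5 : (X : ℝ) / ((p ^ k : ℕ) : ℝ) ≤ X / (p : ℝ) ^ 2 := by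
    push_cast
    apply div_le_div_of_nonneg_left (by positivity) (by positivity) h4
  have h6 : (0 : ℝ) ≤ (X : ℝ) / ((p ^ k : ℕ) : ℝ) := by positivity
  calc ((X : ℝ) / ((p ^ k : ℕ) : ℝ) + 1) * rho f (p ^ k)
      ≤ ((X : ℝ) / (p : ℝ) ^ 2 + 1) * D := by
        apply mul_le_mul (by linarith) h3 (by positivity) (by positivity)
    _ = D * ((X : ℝ) / (p : ℝ) ^ 2 + 1) := by ring

theorem per_of_dvd (f : ℤ[X]) (q M n : ℕ) (h : q ∣ M) :
    ((q : ℤ) ∣ f.eval ((n + M : ℕ) : ℤ)) ↔ ((q : ℤ) ∣ f.eval (n : ℤ)) := by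
  obtain ⟨c, rfl⟩ := h
  rw [← sv_dvd_mod f q (n + q * c), ← sv_dvd_mod f q n, Nat.add_mul_mod_self_left]

/-- **several polynomials.** -/
theorem main_family {m : ℕ} (hm : 0 < m) (f : Fin m → ℤ[X]) (k : Fin m → ℕ)
    (hk : ∀ i, 2 ≤ k i) (hf : ∀ i, Good (f i) (k i))
    (hloc : ∀ p : ℕ, p.Prime → rhoS f k p < p ^ topExp k) :
    Multipliable (fun p : Nat.Primes => 1 - (rhoS f k p : ℝ) / ((p : ℕ) : ℝ) ^ topExp k) ∧
    0 < densityS f k ∧
    ∃ C : ℝ, ∀ X : ℕ, 2 ≤ X →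
      |(countS f k X : ℝ) - densityS f k * X| ≤ C * (X / Real.log X) := by
  classical
  set B : ℕ → ℕ → Prop := fun p n => ∃ i, (p : ℤ) ^ k i ∣ (f i).eval (n : ℤ) with hB
  have hle : ∀ i, k i ≤ topExp k := fun i => Finset.le_sup (f := k) (Finset.mem_univ i)
  have hK : 2 ≤ topExp k := (hk ⟨0, hm⟩).trans (hle _)
  have hper : ∀ p : ℕ, p.Prime → ∀ n, B p (n + p ^ topExp k) ↔ B p n := by
    intro p _ n
    simp only [hB]
    refine exists_congr fun i => ?_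
    have h1 := per_of_dvd (f i) (p ^ k i) (p ^ topExp k) n (pow_dvd_pow p (hle i))
    push_cast at h1 ⊢
    exact h1
  choose D hD0 hD using fun i => count_le (f i) (k i) (hk i) (hf i)
  have hcount : ∀ p : ℕ, p.Prime → ∀ X : ℕ,
      (nB B p X : ℝ) ≤ (∑ i, D i) * ((X : ℝ) / (p : ℝ) ^ 2 + 1) := by
    intro p hp X
    have h1 : nB B p X ≤ ∑ i, nB (fun p n => (p : ℤ) ^ k i ∣ (f i).eval (n : ℤ)) p X := by
      unfold nB
      exact card_filter_biUnion _ _ (fun (i : Fin m) (n : ℕ) => (p : ℤ) ^ k i ∣ (f i).eval (n : ℤ))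
        fun n hn => hn
    calc (nB B p X : ℝ)
        ≤ ((∑ i, nB (fun p n => (p : ℤ) ^ k i ∣ (f i).eval (n : ℤ)) p X : ℕ) : ℝ) := by
          exact_mod_cast h1
      _ = ∑ i, (nB (fun p n => (p : ℤ) ^ k i ∣ (f i).eval (n : ℤ)) p X : ℝ) := by push_cast; rfl
      _ ≤ ∑ i, D i * ((X : ℝ) / (p : ℝ) ^ 2 + 1) := Finset.sum_le_sum fun i _ => hD i p hp X
      _ = _ := by rw [Finset.sum_mul]
  choose C hC0 hC using fun i => tailLog_good (k i) (hk i) (f i).natDegree (f i) le_rfl (hf i)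
  have htail : ∀ X : ℕ, 2 ≤ X → (tB B X : ℝ) ≤ (∑ i, C i) * (X / Real.log X) := by
    intro X hX
    have h1 : tB B X ≤ ∑ i, tail (f i) (k i) X := by
      unfold tB tail
      exact card_filter_biUnion _ _ (fun (i : Fin m) (n : ℕ) => ∃ p : ℕ, p.Prime ∧ X < p ∧
          (p : ℤ) ^ k i ∣ (f i).eval (n : ℤ))
        fun n ⟨p, hp, hXp, i, hi⟩ => ⟨i, p, hp, hXp, hi⟩
    calc (tB B X : ℝ) ≤ ((∑ i, tail (f i) (k i) X : ℕ) : ℝ) := by exact_mod_cast h1
      _ = ∑ i, (tail (f i) (k i) X : ℝ) := by push_cast; rfl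
      _ ≤ ∑ i, C i * (X / Real.log X) := Finset.sum_le_sum fun i _ => hC i X hX
      _ = _ := by rw [Finset.sum_mul]
  have hrB : ∀ p : ℕ, rB B (topExp k) p = rhoS f k p := fun p => by
    unfold rB rhoS
    exact card_filter_eq _ _ _ fun n => Iff.rfl
  have hdB : dB B (topExp k) = densityS f k := by
    unfold dB densityS
    simp only [hrB]
  have hcB : ∀ X : ℕ, cB B X = countS f k X := by
    intro X
    unfold cB countS
    refine card_filter_eq _ _ _ fun n => ?_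
    simp only [hB, PowerFree, not_exists]
    exact ⟨fun h i p hp => h p hp i, fun h p hp i => h i p hp⟩
  obtain ⟨h1, h2, C', _, h3⟩ := abs_sieve hK hper (Finset.sum_nonneg fun i _ => hD0 i)
    (Finset.sum_nonneg fun i _ => hC0 i) hcount (fun p hp => by rw [hrB]; exact hloc p hp) htail
  simp only [hrB] at h1
  rw [hdB] at h2
  refine ⟨h1, h2, C', fun X hX => ?_⟩
  rw [← hcB, ← hdB]
  exact h3 X hX

/-- **one polynomial.** -/
theorem main_one (f : ℤ[X]) (k : ℕ) (hk : 2 ≤ k) (hf : Good f k)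
    (hloc : ∀ p : ℕ, p.Prime → rho f (p ^ k) < p ^ k) :
    Multipliable (fun p : Nat.Primes => 1 - (rho f ((p : ℕ) ^ k) : ℝ) / ((p : ℕ) : ℝ) ^ k) ∧
    0 < density f k ∧
    ∃ C : ℝ, ∀ X : ℕ, 2 ≤ X →
      |(countPF f k X : ℝ) - density f k * X| ≤ C * (X / Real.log X) := by
  classical
  set B : ℕ → ℕ → Prop := fun p n => (p : ℤ) ^ k ∣ f.eval (n : ℤ) with hB
  have hper : ∀ p : ℕ, p.Prime → ∀ n, B p (n + p ^ k) ↔ B p n := by
    intro p _ n
    have h1 := per_of_dvd f (p ^ k) (p ^ k) n dvd_rfl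
    simp only [hB]
    push_cast at h1 ⊢
    exact h1
  obtain ⟨D, hD0, hD⟩ := count_le f k hk hf
  obtain ⟨C, hC0, hC⟩ := tailLog_good k hk f.natDegree f le_rfl hf
  have hrB : ∀ p : ℕ, rB B k p = rho f (p ^ k) := by
    intro p
    unfold rB rho
    refine card_filter_eq _ _ _ fun n => ?_
    simp only [hB]
    push_cast
    rfl
  have hdB : dB B k = density f k := by
    unfold dB density
    simp only [hrB]
  have hcB : ∀ X : ℕ, cB B X = countPF f k X := fun X => by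
    unfold cB countPF
    exact card_filter_eq _ _ _ fun n => Iff.rfl
  have htB : ∀ X : ℕ, tB B X = tail f k X := fun X => by
    unfold tB tail
    exact card_filter_eq _ _ _ fun n => Iff.rfl
  obtain ⟨h1, h2, C', _, h3⟩ := abs_sieve hk hper hD0 hC0 hD
    (fun p hp => by rw [hrB]; exact hloc p hp) (fun X hX => by rw [htB]; exact hC X hX)
  simp only [hrB] at h1
  rw [hdB] at h2
  refine ⟨h1, h2, C', fun X hX => ?_⟩
  rw [← hcB, ← hdB]
  exact h3 X hX

end Vale.Agent.P018.H867
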