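import Vale.Agent.P018.H867.Tail

/-! # P018, H867: from irreducible to separable polynomials. -/

namespace Vale.Agent.P018.H867

open Polynomial Filter Topology

/-! ### Bezout identities over `ℤ` -/

theorem int_bezout (A B : ℤ[X])
    (h : IsCoprime (A.map (Int.castRingHom ℚ)) (B.map (Int.castRingHom ℚ))) :
    ∃ (u v : ℤ[X]) (R : ℤ), R ≠ 0 ∧ u * A + v * B = C R := by
  obtain ⟨a, b, hab⟩ := h
  obtain ⟨A', s, hs, hA⟩ := sv_normal a
  obtain ⟨B', t, ht, hB⟩ := sv_normal b
  refine ⟨C t * A', C s * B', s * t, mul_ne_zero hs ht, ?_⟩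
  have hinj : Function.Injective (Polynomial.map (Int.castRingHom ℚ)) :=
    Polynomial.map_injective _ (Int.cast_injective)
  apply hinj
  simp only [Polynomial.map_add, Polynomial.map_mul, Polynomial.map_C, hA, hB]
  simp only [eq_intCast, Int.cast_mul, C_mul]
  calc _ = C (s : ℚ) * C (t : ℚ) * (a * map (Int.castRingHom ℚ) A
        + b * map (Int.castRingHom ℚ) B) := by ring
    _ = _ := by rw [hab, mul_one]

theorem sep_bezout (f : ℤ[X]) (hsq : Squarefree (f.map (Int.castRingHom ℚ))) :
    ∃ (u v : ℤ[X]) (R : ℤ), R ≠ 0 ∧ u * f + v * derivative f = C R := by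
  have hsep : (f.map (Int.castRingHom ℚ)).Separable :=
    PerfectField.separable_iff_squarefree.2 hsq
  have h : IsCoprime (f.map (Int.castRingHom ℚ)) ((derivative f).map (Int.castRingHom ℚ)) := by
    rw [← Polynomial.derivative_map]
    exact hsep
  exact int_bezout f (derivative f) h

/-- a bounded number of roots modulo `p ^ k`, for separable polynomials. -/
theorem sep_rho_bound (f : ℤ[X]) (k : ℕ) (hk : 1 ≤ k)
    (hsq : Squarefree (f.map (Int.castRingHom ℚ))) :
    ∃ D : ℕ, ∀ p : ℕ, p.Prime → rho f (p ^ k) ≤ D := by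
  obtain ⟨u, v, R, hR0, hR⟩ := sep_bezout f hsq
  have hf0 : f ≠ 0 := by
    rintro rfl
    simp at hsq
  have hlc0 : f.leadingCoeff ≠ 0 := leadingCoeff_ne_zero.mpr hf0
  set T := max R.natAbs f.leadingCoeff.natAbs with hT
  refine ⟨f.natDegree + T ^ k, fun p hp => ?_⟩
  by_cases hpT : p ≤ T
  · have h1 : rho f (p ^ k) ≤ p ^ k := by
      unfold rho
      refine (Finset.card_filter_le _ _).trans ?_
      rw [Finset.card_range]
    have h2 : p ^ k ≤ T ^ k := Nat.pow_le_pow_left hpT k
    omega
  · push Not at hpT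
    have h1 : ¬ (p : ℤ) ∣ R := by
      intro h
      have h2 : p ∣ R.natAbs := Int.natCast_dvd.mp h
      have h3 := Nat.le_of_dvd (Int.natAbs_pos.mpr hR0) h2
      have := le_max_left R.natAbs f.leadingCoeff.natAbs
      omega
    have h1' : ¬ (p : ℤ) ∣ f.leadingCoeff := by
      intro h
      have h2 : p ∣ f.leadingCoeff.natAbs := Int.natCast_dvd.mp h
      have h3 := Nat.le_of_dvd (Int.natAbs_pos.mpr hlc0) h2
      have := le_max_right R.natAbs f.leadingCoeff.natAbs
      omega
    have h2 := sv_rho_pow_le f k p hp hk u v R hR h1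
    have h3 := sv_roots_mod_p f p hp h1'
    omega

/-! ### the tail of a product -/

theorem tail_split (f A B u v : ℤ[X]) (R c : ℤ) (hR : R ≠ 0) (hAB : A * B = C c * f)
    (hbez : u * A + v * B = C R) (k X : ℕ) (hX : R.natAbs ≤ X) :
    tail f k X ≤ tail A k X + tail B k X := by
  classical
  unfold tail
  refine (Finset.card_le_card (t := _ ∪ _) ?_).trans (Finset.card_union_le _ _)
  intro n hn
  rw [Finset.mem_filter] at hn
  obtain ⟨hnI, p, hp, hXp, hdvd⟩ := hn
  rw [Finset.mem_union, Finset.mem_filter, Finset.mem_filter]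
  have hpp : Prime (p : ℤ) := Nat.prime_iff_prime_int.mp hp
  have h1 : (p : ℤ) ^ k ∣ A.eval (n : ℤ) * B.eval (n : ℤ) := by
    have h2 : A.eval (n : ℤ) * B.eval (n : ℤ) = c * f.eval (n : ℤ) := by
      have h3 := congrArg (Polynomial.eval (n : ℤ)) hAB
      simpa using h3
    rw [h2]
    exact Dvd.dvd.mul_left hdvd c
  by_cases hA : (p : ℤ) ∣ A.eval (n : ℤ)
  · by_cases hB : (p : ℤ) ∣ B.eval (n : ℤ)
    · exfalso
      have h4 : (u * A + v * B).eval (n : ℤ) = R := by rw [hbez]; simp
      rw [eval_add, eval_mul, eval_mul] at h4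
      have h5 : (p : ℤ) ∣ R := by
        rw [← h4]
        exact dvd_add (Dvd.dvd.mul_left hA _) (Dvd.dvd.mul_left hB _)
      have h6 : p ∣ R.natAbs := Int.natCast_dvd.mp h5
      have h7 := Nat.le_of_dvd (Int.natAbs_pos.mpr hR) h6
      omega
    · left
      refine ⟨hnI, p, hp, hXp, ?_⟩
      exact (IsCoprime.pow_left ((Prime.coprime_iff_not_dvd hpp).mpr hB)).dvd_of_dvd_mul_right h1
  · right
    refine ⟨hnI, p, hp, hXp, ?_⟩
    exact (IsCoprime.pow_left ((Prime.coprime_iff_not_dvd hpp).mpr hA)).dvd_of_dvd_mul_left h1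

theorem tailLog_split (f A B u v : ℤ[X]) (R c : ℤ) (hR : R ≠ 0) (hAB : A * B = C c * f)
    (hbez : u * A + v * B = C R) (k : ℕ) (hA : TailLog A k) (hB : TailLog B k) :
    TailLog f k := by
  obtain ⟨C1, hC1, h1⟩ := hA
  obtain ⟨C2, hC2, h2⟩ := hB
  refine tailLog_of_large f k R.natAbs (C1 + C2) ?_
  intro X hX hX2
  have h3 := tail_split f A B u v R c hR hAB hbez k X hX
  have h4 : (tail f k X : ℝ) ≤ tail A k X + tail B k X := by exact_mod_cast h3
  have h5 := h1 X hX2
  have h6 := h2 X hX2
  rw [add_mul]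
  linarith

/-! ### induction on the degree -/

theorem tailLog_good (k : ℕ) (hk : 2 ≤ k) : ∀ (N : ℕ) (f : ℤ[X]), f.natDegree ≤ N → Good f k →
    TailLog f k := by
  intro N
  induction N with
  | zero =>
    intro f hN hf
    have hf0 : f ≠ 0 := by
      rintro rfl
      have := hf.1
      simp at this
    exact tailLog_large f hf0 k (by omega) (by omega)
  | succ N ih =>
    intro f hN hf
    obtain ⟨hsq, hfac⟩ := hf
    have hf0 : f ≠ 0 := by
      rintro rfl
      simp at hsq
    have hinj : Function.Injective (Polynomial.map (Int.castRingHom ℚ)) :=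
      Polynomial.map_injective _ (Int.cast_injective)
    have hdegmap : ∀ g : ℤ[X], (g.map (Int.castRingHom ℚ)).natDegree = g.natDegree := fun g =>
      natDegree_map_eq_of_injective (Int.cast_injective) g
    have hm0 : f.map (Int.castRingHom ℚ) ≠ 0 := fun h => hf0 (hinj (by simpa using h))
    rcases Nat.eq_zero_or_pos f.natDegree with hd0 | hd0
    · exact tailLog_large f hf0 k (by omega) (by omega)
    by_cases hirr : Irreducible (f.map (Int.castRingHom ℚ))
    · have h1 := hfac _ hirr dvd_rfl
      rw [hdegmap] at h1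
      exact tailLog_irr f hirr k hk h1
    have hnu : ¬ IsUnit (f.map (Int.castRingHom ℚ)) := by
      intro h
      have h1 := natDegree_eq_zero_of_isUnit h
      rw [hdegmap] at h1
      omega
    obtain ⟨a, b, ha, hb, hab⟩ : ∃ a b : ℚ[X], ¬ IsUnit a ∧ ¬ IsUnit b ∧
        f.map (Int.castRingHom ℚ) = a * b := by
      by_contra hcon
      apply hirr
      refine ⟨hnu, fun a b hab => ?_⟩
      by_contra h
      push Not at h
      exact hcon ⟨a, b, h.1, h.2, hab⟩
    have ha0 : a ≠ 0 := by
      rintro rfl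
      exact hm0 (by rw [hab, zero_mul])
    have hb0 : b ≠ 0 := by
      rintro rfl
      exact hm0 (by rw [hab, mul_zero])
    have hdega : 0 < a.natDegree := by
      by_contra h
      have h0 : a.natDegree = 0 := by omega
      exact ha (isUnit_iff_degree_eq_zero.2 (by rw [degree_eq_natDegree ha0, h0]; rfl))
    have hdegb : 0 < b.natDegree := by
      by_contra h
      have h0 : b.natDegree = 0 := by omega
      exact hb (isUnit_iff_degree_eq_zero.2 (by rw [degree_eq_natDegree hb0, h0]; rfl))
    have hdeg : f.natDegree = a.natDegree + b.natDegree := by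
      rw [← hdegmap f, hab, natDegree_mul ha0 hb0]
    have hcop : IsCoprime a b := by
      have h1 : Squarefree (a * b) := hab ▸ hsq
      exact (squarefree_mul_iff.1 h1).1.isCoprime
    obtain ⟨A, s, hs, hA⟩ := sv_normal a
    obtain ⟨B, t, ht, hB⟩ := sv_normal b
    have hsu : IsUnit (C (s : ℚ)) := isUnit_C.2 (isUnit_iff_ne_zero.2 (by exact_mod_cast hs))
    have htu : IsUnit (C (t : ℚ)) := isUnit_C.2 (isUnit_iff_ne_zero.2 (by exact_mod_cast ht))
    have hAa : Associated (A.map (Int.castRingHom ℚ)) a := by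
      rw [hA]
      exact (associated_unit_mul_left a _ hsu)
    have hBb : Associated (B.map (Int.castRingHom ℚ)) b := by
      rw [hB]
      exact (associated_unit_mul_left b _ htu)
    have hdA : A.natDegree = a.natDegree := by
      rw [← hdegmap A, hA, natDegree_mul hsu.ne_zero ha0]
      simp
    have hdB : B.natDegree = b.natDegree := by
      rw [← hdegmap B, hB, natDegree_mul htu.ne_zero hb0]
      simp
    have hsqab : Squarefree a ∧ Squarefree b := by
      have h1 : Squarefree (a * b) := hab ▸ hsq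
      exact ⟨(squarefree_mul_iff.1 h1).2.1, (squarefree_mul_iff.1 h1).2.2⟩
    have hgA : Good A k := by
      refine ⟨(hAa.symm.squarefree_iff).1 hsqab.1, fun g hg hgd => hfac g hg ?_⟩
      rw [hab]
      exact (hgd.trans hAa.dvd).trans (dvd_mul_right a b)
    have hgB : Good B k := by
      refine ⟨(hBb.symm.squarefree_iff).1 hsqab.2, fun g hg hgd => hfac g hg ?_⟩
      rw [hab]
      exact (hgd.trans hBb.dvd).trans (dvd_mul_left b a)
    have hcopAB : IsCoprime (A.map (Int.castRingHom ℚ)) (B.map (Int.castRingHom ℚ)) := by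
      rw [hA, hB]
      exact (isCoprime_mul_unit_left_left hsu _ _).2 ((isCoprime_mul_unit_left_right htu _ _).2 hcop)
    obtain ⟨u, v, R, hR, hbez⟩ := int_bezout A B hcopAB
    have hABf : A * B = C (s * t) * f := by
      apply hinj
      simp only [Polynomial.map_mul, Polynomial.map_C, hA, hB, hab]
      simp only [eq_intCast, Int.cast_mul, C_mul]
      ring
    exact tailLog_split f A B u v R (s * t) hR hABf hbez k
      (ih A (by omega) hgA) (ih B (by omega) hgB)

end Vale.Agent.P018.H867
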