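import Vale.Agent.P018.Bdl.B19
import Vale.Agent.P018.H867.Abs
import Vale.Agent.P018.H867.Defs

/-! # P018, H867: the tail bound with the factor `1 / log X`. -/

namespace Vale.Agent.P018.H867

open Polynomial Filter Topology

/-- the bound for the number of pairs. -/
def HP (f : ℤ[X]) (k : ℕ) : Prop :=
  ∀ A : ℝ, 0 < A → ∃ η K : ℝ, 0 < η ∧ 0 < K ∧ ∃ X0 : ℕ, ∀ X P : ℕ, X0 ≤ X → X ≤ P →
    (P : ℝ) ^ k ≤ A * (X : ℝ) ^ f.natDegree →
    ((pairs f k X P).card : ℝ) ≤ K * (X : ℝ) ^ (1 - η)

theorem hp_of_fin (f : ℤ[X]) (k : ℕ) (hk : 2 ≤ k) (hkd : k < f.natDegree)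
    (hnear : ∀ a : ℝ, 1 ≤ a → a ≤ (f.natDegree : ℝ) / k →
      ∃ ε : ℝ, 0 < ε ∧ K.FinP f k (Set.Ioo (a - ε) (a + ε))) : HP f k := by
  have hk0 : (0 : ℝ) < k := by exact_mod_cast (show 0 < k by omega)
  have hdk : (1 : ℝ) ≤ (f.natDegree : ℝ) / k := by
    rw [le_div_iff₀ hk0, one_mul]
    exact_mod_cast hkd.le
  -- compactness
  have hcomp : K.FinP f k (Set.Icc 1 ((f.natDegree : ℝ) / k)) := by
    refine isCompact_Icc.induction_on ?_ ?_ ?_ ?_
    · exact ⟨1, 1, one_pos, one_pos, 0, fun X P _ _ h => absurd h (Set.notMem_empty _)⟩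
    · intro s t hst ht
      obtain ⟨η, K, hη, hK, X0, h⟩ := ht
      exact ⟨η, K, hη, hK, X0, fun X P h1 h2 h3 => h X P h1 h2 (hst h3)⟩
    · intro s t hs ht
      exact K.fin_union f k hs ht
    · intro a ha
      obtain ⟨ε, hε, h⟩ := hnear a ha.1 ha.2
      exact ⟨_, mem_nhdsWithin_of_mem_nhds (Ioo_mem_nhds (by linarith only [hε]) (by linarith only [hε])), h⟩
  obtain ⟨ε, hε, hend⟩ := hnear _ hdk le_rfl
  obtain ⟨η, K, hη, hK, X1, hX1⟩ := K.fin_union f k hcomp hend
  intro A hA
  refine ⟨η, K, hη, hK, max (max X1 2) (⌈Real.exp (|Real.log A| / (k * ε))⌉₊ + 1), ?_⟩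
  intro X P hX hXP hPA
  have h1 : X1 ≤ X := le_trans (le_trans (le_max_left _ _) (le_max_left _ _)) hX
  have h2 : 2 ≤ X := le_trans (le_trans (le_max_right _ _) (le_max_left _ _)) hX
  have h3 : ⌈Real.exp (|Real.log A| / (k * ε))⌉₊ + 1 ≤ X := le_trans (le_max_right _ _) hX
  apply hX1 X P h1 hXP
  have hXr : (1 : ℝ) < X := by exact_mod_cast (show 1 < X by omega)
  have hXP' : (X : ℝ) ≤ P := by exact_mod_cast hXP
  have hPr : (0 : ℝ) < P := by linarith only [hXP', hXr]
  have hl : 0 < Real.log X := Real.log_pos hXr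
  have hlP : Real.log X ≤ Real.log P := Real.log_le_log (by linarith only [hXr]) hXP'
  have h4 : Real.exp (|Real.log A| / (k * ε)) < X := by
    have h5 := Nat.le_ceil (Real.exp (|Real.log A| / (k * ε)))
    have h6 : ((⌈Real.exp (|Real.log A| / (k * ε))⌉₊ + 1 : ℕ) : ℝ) ≤ X := by exact_mod_cast h3
    push_cast at h6
    linarith only [h6, h5]
  have h7 : |Real.log A| / (k * ε) < Real.log X := (Real.lt_log_iff_exp_lt (by linarith only [hXr])).2 h4
  have h8 : |Real.log A| < k * ε * Real.log X := by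
    rw [div_lt_iff₀ (by positivity)] at h7
    linarith only [h7]
  have h9 : k * Real.log P ≤ Real.log A + f.natDegree * Real.log X := by
    have h10 := Real.log_le_log (by positivity) hPA
    rwa [Real.log_pow, Real.log_mul hA.ne' (by positivity), Real.log_pow] at h10
  have hge : 1 ≤ Real.log P / Real.log X := by
    rw [le_div_iff₀ hl, one_mul]
    exact hlP
  by_cases hle : Real.log P / Real.log X ≤ (f.natDegree : ℝ) / k
  · exact Or.inl ⟨hge, hle⟩
  · right
    push Not at hle
    refine ⟨by linarith only [hle, hε], ?_⟩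
    rw [div_lt_iff₀ hl]
    have h11 : Real.log A < k * ε * Real.log X := lt_of_le_of_lt (le_abs_self _) h8
    have h12 : k * Real.log P < k * (((f.natDegree : ℝ) / k + ε) * Real.log X) := by
      have h13 : k * (((f.natDegree : ℝ) / k + ε) * Real.log X) =
          f.natDegree * Real.log X + k * ε * Real.log X := by
        field_simp
      rw [h13]
      linarith only [h11, h9]
    exact lt_of_mul_lt_mul_left h12 hk0.le

theorem hp_range (f : ℤ[X]) (hirr : Irreducible (f.map (Int.castRingHom ℚ))) (k : ℕ)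
    (hk : 2 ≤ k) (hkd : k < f.natDegree) (hr : InRange f.natDegree k) : HP f k := by
  by_cases h9 : 5 * f.natDegree + 2 ≤ 9 * k
  · rcases Nat.lt_or_ge (5 * f.natDegree + 2) (9 * k) with h | h
    · exact fun A hA => pairs_bound f hirr k hk hkd (by omega) A hA
    · exact fun A _ => pairs_bound_two f hirr k hk hkd (by omega)
        (fun h' hkh hk' hh hk3 θ0 hθ0 hθ => lines_bound f hirr k h' hkh hk' hh hk3 θ0 hθ0 hθ) A
  have hadm : (∀ a : ℝ, 1 ≤ a → a ≤ (f.natDegree : ℝ) / k → K2.Adm2 f.natDegree k a) →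
      HP f k := fun h =>
    hp_of_fin f k hk hkd fun a ha ha2 => K2.fin_near2 f hirr k hk hkd a ha (h a ha ha2)
  have hB : 2 * f.natDegree + 12 ≤ 7 * k → 8 ≤ f.natDegree → HP f k := fun h1 h2 =>
    hadm fun a ha ha2 => K3.adm2_seven f.natDegree k h2 hkd.le h1 a ha ha2
  by_cases hA : f.natDegree < 2 * k
  · by_cases h8 : 8 ≤ f.natDegree
    · exact hB (by omega) h8
    · obtain ⟨h3, tab, h4, h5⟩ := K3.base_of 7 4 (by norm_num) (by norm_num) _ K3.t7_4_ok
      exact hadm fun a ha ha2 =>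
        K2.adm2_of_table 7 4 h3 tab h4 h5 f.natDegree k (by omega) hkd.le (by omega) (by omega)
          a ha ha2
  rcases hr with h | h | h | h
  · have hd4 : f.natDegree = 4 := by omega
    have hk2 : k = 2 := by omega
    subst hk2
    refine hp_of_fin f 2 hk hkd fun a ha ha2 => ?_
    rw [hd4] at ha2
    exact Q.near_all f hirr hd4 a ha (by norm_num at ha2; linarith)
  · exact absurd h hA
  · exact hB h (by omega)
  · rcases lt_or_ge f.natDegree 64 with h64 | h64
    · rcases K3.small_log f.natDegree k hk h64 h with h1 | h1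
      · exact absurd h1 hA
      · exact hB h1 (by omega)
    · exact hadm fun a ha ha2 => K3.adm2_log f.natDegree k h64 hkd.le h a ha ha2

/-- the tail is `O(X / log X)`. -/
def TailLog (f : ℤ[X]) (k : ℕ) : Prop :=
  ∃ C : ℝ, 0 ≤ C ∧ ∀ X : ℕ, 2 ≤ X → (tail f k X : ℝ) ≤ C * (X / Real.log X)

theorem tail_triv (f : ℤ[X]) (k X : ℕ) : tail f k X ≤ X := by
  classical
  unfold tail
  refine (Finset.card_filter_le _ _).trans ?_
  simp

theorem tailLog_of_large (f : ℤ[X]) (k N0 : ℕ) (C : ℝ)
    (h : ∀ X : ℕ, N0 ≤ X → 2 ≤ X → (tail f k X : ℝ) ≤ C * (X / Real.log X)) : TailLog f k := by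
  refine ⟨max |C| (Real.log (N0 + 2)), le_max_of_le_left (abs_nonneg _), fun X hX => ?_⟩
  have hXr : (2 : ℝ) ≤ X := by exact_mod_cast hX
  have hl : 0 < Real.log X := Real.log_pos (by linarith)
  have hq : 0 ≤ (X : ℝ) / Real.log X := by positivity
  rcases le_or_gt N0 X with h1 | h1
  · exact (h X h1 hX).trans
      (mul_le_mul_of_nonneg_right ((le_abs_self C).trans (le_max_left _ _)) hq)
  · have h3 : (tail f k X : ℝ) ≤ X := by exact_mod_cast tail_triv f k X
    refine h3.trans ?_
    have h6 : Real.log X ≤ Real.log (N0 + 2) :=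
      Real.log_le_log (by linarith) (by
        have : (X : ℝ) ≤ N0 := by exact_mod_cast h1.le
        linarith)
    calc (X : ℝ) = Real.log X * (X / Real.log X) := by field_simp
      _ ≤ max |C| (Real.log (N0 + 2)) * (X / Real.log X) :=
        mul_le_mul_of_nonneg_right (h6.trans (le_max_right _ _)) hq

/-- `(log x + 1) * x ^ (1 - η)` is `O(x / log x)`. -/
theorem log_pow_bound {η : ℝ} (hη : 0 < η) {x : ℝ} (hx : 2 ≤ x) :
    Real.log x * x ^ (1 - η) ≤ (2 / η) ^ 2 * (x / Real.log x) := by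
  have hx0 : 0 < x := by linarith
  have hl : 0 < Real.log x := Real.log_pos (by linarith)
  have h1 : Real.log x ≤ x ^ (η / 2) / (η / 2) := Real.log_le_rpow_div hx0.le (by positivity)
  have h2 : Real.log x ^ 2 ≤ (2 / η) ^ 2 * x ^ η := by
    calc Real.log x ^ 2 ≤ (x ^ (η / 2) / (η / 2)) ^ 2 := pow_le_pow_left₀ hl.le h1 2
      _ = (2 / η) ^ 2 * (x ^ (η / 2)) ^ 2 := by field_simp
      _ = (2 / η) ^ 2 * x ^ η := by
        rw [← Real.rpow_natCast (x ^ (η / 2)), ← Real.rpow_mul hx0.le]
        congr 2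
        push_cast
        ring
  rw [mul_div_assoc', le_div_iff₀ hl]
  have h3 : x ^ (1 - η) * x ^ η = x := by
    rw [← Real.rpow_add hx0]
    simp
  calc Real.log x * x ^ (1 - η) * Real.log x = x ^ (1 - η) * Real.log x ^ 2 := by ring
    _ ≤ x ^ (1 - η) * ((2 / η) ^ 2 * x ^ η) :=
      mul_le_mul_of_nonneg_left h2 (Real.rpow_nonneg hx0.le _)
    _ = (2 / η) ^ 2 * (x ^ (1 - η) * x ^ η) := by ring
    _ = (2 / η) ^ 2 * x := by rw [h3]

theorem tailLog_of_hp (f : ℤ[X]) (hirr : Irreducible (f.map (Int.castRingHom ℚ))) (k : ℕ)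
    (hk : 2 ≤ k) (hkd : k < f.natDegree) (hpairs : HP f k) : TailLog f k := by
  classical
  set d := f.natDegree with hd
  set A : ℕ := cSum f + 1 with hA
  obtain ⟨η, K, hη, hK, X0, hX0⟩ := hpairs (A : ℝ) (by rw [hA]; push_cast; positivity)
  -- size of the primes
  have hsize : ∀ X : ℕ, 1 ≤ X → ∀ n p : ℕ, n ≤ X → (p : ℤ) ^ k ∣ f.eval (n : ℤ) →
      p ^ k ≤ A * X ^ d := by
    intro X hX n p hn hdvd
    have hne := eval_ne_zero_of_irreducible f hirr (by omega) (n : ℤ)
    have h1 : p ^ k ≤ (f.eval (n : ℤ)).natAbs := by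
      have h2 := Int.natAbs_dvd_natAbs.2 hdvd
      rw [Int.natAbs_pow, Int.natAbs_natCast] at h2
      exact Nat.le_of_dvd (Int.natAbs_pos.2 hne) h2
    refine h1.trans ((abs_eval_le f hX hn).trans ?_)
    exact Nat.mul_le_mul_right _ (by omega)
  -- every block is small
  have hblock : ∀ X : ℕ, max X0 1 ≤ X → ∀ j : ℕ,
      ((pairs f k X (2 ^ j * X)).card : ℝ) ≤ K * (X : ℝ) ^ (1 - η) := by
    intro X hX j
    rcases (pairs f k X (2 ^ j * X)).eq_empty_or_nonempty with h | ⟨z, hz⟩
    · rw [h]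
      simp only [Finset.card_empty, Nat.cast_zero]
      positivity
    · apply hX0 X _ (le_trans (le_max_left _ _) hX)
      · exact Nat.le_mul_of_pos_left X (by positivity)
      · unfold pairs at hz
        rw [Finset.mem_filter, Finset.mem_product, Finset.mem_Icc, Finset.mem_Ioc] at hz
        have h1 := hsize X (le_trans (le_max_right _ _) hX) z.1 z.2 hz.1.1.2 hz.2.2
        have h2 : (2 ^ j * X) ^ k ≤ A * X ^ d :=
          (Nat.pow_le_pow_left hz.1.2.1.le k).trans h1
        exact_mod_cast h2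
  -- the number of blocks
  have htail : ∀ X : ℕ, max X0 1 ≤ X →
      (tail f k X : ℝ) ≤ ((Nat.log 2 (A * X ^ d) : ℝ) + 1) * (K * (X : ℝ) ^ (1 - η)) := by
    intro X hX
    have hX1 : 1 ≤ X := le_trans (le_max_right _ _) hX
    set J := Nat.log 2 (A * X ^ d) with hJ
    have hsub : ((Finset.Icc 1 X).filter (fun n : ℕ => ∃ p : ℕ, p.Prime ∧ X < p ∧
        (p : ℤ) ^ k ∣ f.eval (n : ℤ))) ⊆
        (Finset.range (J + 1)).biUnion (fun j => (pairs f k X (2 ^ j * X)).image Prod.fst) := by
      intro n hn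
      rw [Finset.mem_filter, Finset.mem_Icc] at hn
      obtain ⟨⟨hn1, hnX⟩, p, hp, hXp, hdvd⟩ := hn
      have hpk := hsize X hX1 n p hnX hdvd
      have hpA : p ≤ A * X ^ d := (Nat.le_self_pow (by omega) p).trans hpk
      -- choose the block
      have hex : ∃ j, p ≤ 2 ^ (j + 1) * X := by
        refine ⟨p, ?_⟩
        have : p ≤ 2 ^ (p + 1) := (Nat.lt_two_pow_self (n := p)).le.trans
          (Nat.pow_le_pow_right (by norm_num) (by omega))
        exact this.trans (Nat.le_mul_of_pos_right _ (by omega))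
      set j := Nat.find hex with hj
      have hj1 : p ≤ 2 ^ (j + 1) * X := Nat.find_spec hex
      have hj2 : 2 ^ j * X < p := by
        rcases Nat.eq_zero_or_pos j with h0 | h0
        · rw [h0]
          simpa using hXp
        · have := Nat.find_min hex (m := j - 1) (by omega)
          push Not at this
          rwa [Nat.sub_add_cancel h0] at this
      have hjJ : j < J + 1 := by
        rw [Nat.lt_succ_iff, hJ]
        apply Nat.le_log_of_pow_le (by norm_num)
        calc 2 ^ j ≤ 2 ^ j * X := Nat.le_mul_of_pos_right _ (by omega)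
          _ ≤ p := hj2.le
          _ ≤ A * X ^ d := hpA
      rw [Finset.mem_biUnion]
      refine ⟨j, Finset.mem_range.2 hjJ, ?_⟩
      rw [Finset.mem_image]
      refine ⟨(n, p), ?_, rfl⟩
      unfold pairs
      rw [Finset.mem_filter, Finset.mem_product, Finset.mem_Icc, Finset.mem_Ioc]
      refine ⟨⟨⟨hn1, hnX⟩, hj2, ?_⟩, hp, hdvd⟩
      calc p ≤ 2 ^ (j + 1) * X := hj1
        _ = 2 * (2 ^ j * X) := by ring
    have hcard : tail f k X ≤ ∑ j ∈ Finset.range (J + 1), (pairs f k X (2 ^ j * X)).card := by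
      unfold tail
      calc _ ≤ ((Finset.range (J + 1)).biUnion
            (fun j => (pairs f k X (2 ^ j * X)).image Prod.fst)).card := by
              convert Finset.card_le_card hsub
        _ ≤ ∑ j ∈ Finset.range (J + 1), ((pairs f k X (2 ^ j * X)).image Prod.fst).card :=
              Finset.card_biUnion_le
        _ ≤ _ := Finset.sum_le_sum fun j _ => Finset.card_image_le
    calc (tail f k X : ℝ) ≤ ((∑ j ∈ Finset.range (J + 1), (pairs f k X (2 ^ j * X)).card : ℕ) : ℝ) := by
          exact_mod_cast hcard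
      _ = ∑ j ∈ Finset.range (J + 1), ((pairs f k X (2 ^ j * X)).card : ℝ) := by push_cast; rfl
      _ ≤ ∑ j ∈ Finset.range (J + 1), (K * (X : ℝ) ^ (1 - η)) :=
          Finset.sum_le_sum fun j _ => hblock X hX j
      _ = ((J : ℝ) + 1) * (K * (X : ℝ) ^ (1 - η)) := by
          rw [Finset.sum_const, Finset.card_range, nsmul_eq_mul]
          push_cast
          ring
  -- the number of blocks is `O(log X)`
  have hl2 : 0 < Real.log 2 := Real.log_pos (by norm_num)
  have hA1 : (1 : ℝ) ≤ A := by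
    rw [hA]
    push_cast
    have : (0 : ℝ) ≤ (cSum f : ℝ) := by positivity
    linarith
  have hlA : 0 ≤ Real.log A := Real.log_nonneg hA1
  set c : ℝ := (Real.log A / Real.log 2 + 1) / Real.log 2 + d / Real.log 2 with hc
  have hc0 : 0 ≤ c := by positivity
  refine tailLog_of_large f k (max X0 1) (c * K * (2 / η) ^ 2) ?_
  intro X hX hX2
  have hXr : (2 : ℝ) ≤ X := by exact_mod_cast hX2
  have hX0' : (0 : ℝ) < X := by linarith
  have hlX : Real.log 2 ≤ Real.log X := Real.log_le_log (by norm_num) hXr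
  have hl0 : 0 < Real.log X := lt_of_lt_of_le hl2 hlX
  have hJ : (Nat.log 2 (A * X ^ d) : ℝ) + 1 ≤ c * Real.log X := by
    have h1 : (Nat.log 2 (A * X ^ d) : ℝ) ≤ (Real.log A + d * Real.log X) / Real.log 2 := by
      rw [le_div_iff₀ hl2]
      have h2 : 2 ^ Nat.log 2 (A * X ^ d) ≤ A * X ^ d :=
        Nat.pow_log_le_self 2 (by
          have : 0 < A * X ^ d := Nat.mul_pos (by omega) (pow_pos (by omega) _)
          omega)
      have h3 : ((2 : ℝ)) ^ Nat.log 2 (A * X ^ d) ≤ A * (X : ℝ) ^ d := by exact_mod_cast h2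
      have h4 := Real.log_le_log (by positivity) h3
      rwa [Real.log_pow, Real.log_mul (by positivity) (by positivity), Real.log_pow] at h4
    have h5 : Real.log A / Real.log 2 + 1 ≤
        (Real.log A / Real.log 2 + 1) / Real.log 2 * Real.log X := by
      rw [div_mul_eq_mul_div, le_div_iff₀ hl2]
      exact mul_le_mul_of_nonneg_left hlX (by positivity)
    calc (Nat.log 2 (A * X ^ d) : ℝ) + 1 ≤ (Real.log A + d * Real.log X) / Real.log 2 + 1 := by
          linarith
      _ = (Real.log A / Real.log 2 + 1) + d / Real.log 2 * Real.log X := by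
          field_simp
          ring
      _ ≤ (Real.log A / Real.log 2 + 1) / Real.log 2 * Real.log X +
          d / Real.log 2 * Real.log X := by linarith
      _ = c * Real.log X := by rw [hc]; ring
  calc (tail f k X : ℝ) ≤ ((Nat.log 2 (A * X ^ d) : ℝ) + 1) * (K * (X : ℝ) ^ (1 - η)) := htail X hX
    _ ≤ (c * Real.log X) * (K * (X : ℝ) ^ (1 - η)) :=
        mul_le_mul_of_nonneg_right hJ (by positivity)
    _ = c * K * (Real.log X * (X : ℝ) ^ (1 - η)) := by ring
    _ ≤ c * K * ((2 / η) ^ 2 * (X / Real.log X)) :=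
        mul_le_mul_of_nonneg_left (log_pow_bound hη hXr) (by positivity)
    _ = c * K * (2 / η) ^ 2 * (X / Real.log X) := by ring

theorem tailLog_large (f : ℤ[X]) (hf0 : f ≠ 0) (k : ℕ) (hk : 1 ≤ k) (hkd : f.natDegree ≤ k) :
    TailLog f k := by
  obtain ⟨H, hH⟩ : ∃ H : ℕ, H = ∑ i ∈ Finset.range (f.natDegree + 1), (f.coeff i).natAbs :=
    ⟨_, rfl⟩
  have hlc : f.leadingCoeff.natAbs ≤ H := by
    rw [hH]
    exact Finset.single_le_sum (f := fun i => (f.coeff i).natAbs) (fun _ _ => Nat.zero_le _)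
      (Finset.mem_range.2 (Nat.lt_succ_self _))
  have hH1 : 1 ≤ H := by
    have : 0 < f.leadingCoeff.natAbs := Int.natAbs_pos.2 (leadingCoeff_ne_zero.2 hf0)
    omega
  obtain ⟨C, hC, hπ⟩ := primeCounting_le_div_log
  refine tailLog_of_large f k H (f.natDegree + f.natDegree * (C * H)) ?_
  intro X hX hX2
  have hXr : (2 : ℝ) ≤ X := by exact_mod_cast hX2
  have hHr : (1 : ℝ) ≤ H := by exact_mod_cast hH1
  have hl : 0 < Real.log X := Real.log_pos (by linarith)
  have h4 := tail_le f hf0 k hk hkd hH hX (by omega)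
  have h5 : (tail f k X : ℝ) ≤ f.natDegree + f.natDegree * Nat.primeCounting (H * X) := by
    exact_mod_cast h4
  have h6 : 2 ≤ H * X := by
    calc 2 ≤ X := hX2
      _ ≤ H * X := Nat.le_mul_of_pos_left X (by omega)
  have h7 := hπ (H * X) h6
  have h8 : Real.log X ≤ Real.log ((H * X : ℕ) : ℝ) := by
    apply Real.log_le_log (by linarith)
    push_cast
    nlinarith
  have h9 : ((H * X : ℕ) : ℝ) / Real.log ((H * X : ℕ) : ℝ) ≤ H * (X / Real.log X) := by
    calc ((H * X : ℕ) : ℝ) / Real.log ((H * X : ℕ) : ℝ) ≤ ((H * X : ℕ) : ℝ) / Real.log X := by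
          apply div_le_div_of_nonneg_left (by positivity) hl h8
      _ = H * (X / Real.log X) := by
          push_cast
          ring
  have h10 := one_le_div_log hXr
  have h11 : (Nat.primeCounting (H * X) : ℝ) ≤ C * (H * (X / Real.log X)) :=
    h7.trans (mul_le_mul_of_nonneg_left h9 hC.le)
  calc (tail f k X : ℝ) ≤ f.natDegree + f.natDegree * Nat.primeCounting (H * X) := h5
    _ ≤ f.natDegree * (X / Real.log X) + f.natDegree * (C * (H * (X / Real.log X))) := by
        have e1 : (0 : ℝ) ≤ f.natDegree := by positivity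
        have e2 : (f.natDegree : ℝ) ≤ f.natDegree * (X / Real.log X) := by nlinarith
        have e3 : (f.natDegree : ℝ) * Nat.primeCounting (H * X) ≤
            f.natDegree * (C * (H * (X / Real.log X))) := mul_le_mul_of_nonneg_left h11 e1
        linarith
    _ = (f.natDegree + f.natDegree * (C * H)) * (X / Real.log X) := by ring

theorem tailLog_irr (f : ℤ[X]) (hirr : Irreducible (f.map (Int.castRingHom ℚ))) (k : ℕ)
    (hk : 2 ≤ k) (hr : InRange f.natDegree k) : TailLog f k := by
  rcases lt_or_ge k f.natDegree with h | h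
  · exact tailLog_of_hp f hirr k hk h (hp_range f hirr k hk h hr)
  · have hf0 : f ≠ 0 := by
      rintro rfl
      simp at hirr
    exact tailLog_large f hf0 k (by omega) h

end Vale.Agent.P018.H867
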